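import Vale.Agent.H7.P047.Junta

namespace Vale.Agent.Results.P047.ConicalJunta

open Finset Vale.Agent.H7.P047

/-- (1) If one of the two indicator functions of a Boolean `f` is a conical junta of width `k`
then `deg f ≤ k` and `∑ i, fhat f {i} ≤ 2√k`.  (2) If both are, then `∑ i, fhat f {i} ≤ √k`.
(3) For every fractional partition of the cube into labelled subcubes representing `f`,
`∑ i, fhat f {i}` is at most the square root of the average codimension. -/
theorem result :
    (∀ (n k : ℕ) (f : (Fin n → ℤˣ) → ℝ), IsBool f →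
      (IsConical k (fun x => (1 + f x) / 2) ∨ IsConical k (fun x => (1 - f x) / 2)) →
        deg f ≤ k ∧ lin f ≤ 2 * √(k : ℝ)) ∧
    (∀ (n k : ℕ) (f : (Fin n → ℤˣ) → ℝ), IsBool f →
      IsConical k (fun x => (1 + f x) / 2) → IsConical k (fun x => (1 - f x) / 2) →
        lin f ≤ √(k : ℝ)) ∧
    (∀ (n m : ℕ) (f : (Fin n → ℤˣ) → ℝ) (w b : Fin m → ℝ) (A : Fin m → Finset (Fin n))
      (a : Fin m → Fin n → ℤˣ), (∀ j, 0 ≤ w j) → (∀ j, b j = 1 ∨ b j = -1) →
      (∀ x, ∑ j, w j * cubeInd (A j) (a j) x = 1) →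
      (∀ x, f x = ∑ j, w j * b j * cubeInd (A j) (a j) x) →
        lin f ≤ √(∑ j, w j * (1 / 2) ^ (A j).card * ((A j).card : ℝ))) := by
  refine ⟨fun n k f hB h => ?_, fun n k f _ h1 h2 => conical_two_sided h1 h2,
    fun n m f w b A a hw hb h1 hf => lin_le_sqrt_avg w b A a hw hb h1 hf⟩
  have := conical_bound hB h
  exact ⟨(degLE_iff f k).mp this.1, this.2⟩

end Vale.Agent.Results.P047.ConicalJunta
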