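import Vale.Agent.H7.P047.Maj

namespace Vale.Agent.Results.P047.ExponentLaw

open Finset Filter Topology Vale.Agent.H7.P047

/-- There is one exponent `α ∈ [1/2, 1]` with `M(d) ≤ d^α` for every `d ≥ 1` and
`log M(d) / log d → α`; the strong and the weak form of the question are equivalent; and a
single Boolean function violating the strong form makes `M(d)` polynomially larger than `√d`. -/
theorem result :
    (∃ α : ℝ, 1 / 2 ≤ α ∧ α ≤ 1 ∧ (∀ d : ℕ, 1 ≤ d → M d ≤ (d : ℝ) ^ α) ∧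
      Tendsto (fun d : ℕ => Real.log (M d) / Real.log (d : ℝ)) atTop (𝓝 α)) ∧
    ((∃ C : ℝ, ∀ d : ℕ, 1 ≤ d → M d ≤ C * √(d : ℝ)) ↔
      ∀ n : ℕ, 1 ≤ n → ∀ f : (Fin n → ℤˣ) → ℝ, IsBool f → lin f ≤ √(deg f : ℝ)) ∧
    ((∃ n : ℕ, 1 ≤ n ∧ ∃ f : (Fin n → ℤˣ) → ℝ, IsBool f ∧ √(deg f : ℝ) < lin f) →
      ∃ ε : ℝ, 0 < ε ∧ ∃ c : ℝ, 0 < c ∧ ∀ d : ℕ, 1 ≤ d → c * (d : ℝ) ^ (1 / 2 + ε) ≤ M d) := by
  have hlim := tendsto_log_M
  -- the exponent is at least 1/2
  have hlog : Tendsto (fun d : ℕ => Real.log (d : ℝ)) atTop atTop :=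
    Real.tendsto_log_atTop.comp tendsto_natCast_atTop_atTop
  have half_le : 1 / 2 ≤ al := by
    have h1 : Tendsto (fun d : ℕ => 1 / 2 - (Real.log 3 / 2) / Real.log (d : ℝ)) atTop
        (𝓝 (1 / 2 - 0)) := tendsto_const_nhds.sub (hlog.const_div_atTop _)
    rw [sub_zero] at h1
    refine le_of_tendsto_of_tendsto h1 hlim ?_
    filter_upwards [eventually_ge_atTop 2] with d hd
    have hd0 : (0:ℝ) < d := by exact_mod_cast (by omega : 0 < d)
    have hLD : 0 < Real.log (d : ℝ) := Real.log_pos (by exact_mod_cast (by omega : 1 < d))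
    rw [le_div_iff₀ hLD, sub_mul, div_mul_cancel₀ _ hLD.ne']
    have h2 := sqrt_le_M (show 1 ≤ d by omega)
    have h3 : Real.log (√((d:ℝ) / 3)) = (Real.log d - Real.log 3) / 2 := by
      rw [Real.log_sqrt (by positivity), Real.log_div hd0.ne' (by norm_num)]
    have h4 := Real.log_le_log (Real.sqrt_pos.mpr (by positivity)) h2
    rw [h3] at h4
    linarith
  -- the degree-zero case
  have deg0 : ∀ n : ℕ, ∀ f : (Fin n → ℤˣ) → ℝ, deg f = 0 → lin f = 0 := by
    intro n f h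
    have h1 : DegLE f 0 := (degLE_iff f 0).mpr h.le
    unfold lin
    exact Finset.sum_eq_zero fun i _ => h1 {i} (by simp)
  have le_M : ∀ n : ℕ, 1 ≤ n → ∀ f : (Fin n → ℤˣ) → ℝ, IsBool f → lin f ≤ M (deg f) := by
    intro n hn f hB
    have : Nonempty (Fin n) := ⟨⟨0, hn⟩⟩
    exact lin_le_M hB ((degLE_iff f _).mpr le_rfl)
  refine ⟨⟨al, half_le, al_le_one, fun d hd => M_le_rpow hd, hlim⟩, ⟨?_, ?_⟩, ?_⟩
  · rintro ⟨C, hC⟩ n hn f hB
    have hC0 : 0 < C := by
      have := hC 1 le_rfl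
      have h1 := one_le_M (le_refl 1)
      simp only [Nat.cast_one, Real.sqrt_one, mul_one] at this
      linarith
    have hal : al ≤ 1 / 2 := by
      have h1 : Tendsto (fun d : ℕ => 1 / 2 + Real.log C / Real.log (d : ℝ)) atTop
          (𝓝 (1 / 2 + 0)) := tendsto_const_nhds.add (hlog.const_div_atTop _)
      rw [add_zero] at h1
      refine le_of_tendsto_of_tendsto hlim h1 ?_
      filter_upwards [eventually_ge_atTop 2] with d hd
      have hd0 : (0:ℝ) < d := by exact_mod_cast (by omega : 0 < d)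
      have hLD : 0 < Real.log (d : ℝ) := Real.log_pos (by exact_mod_cast (by omega : 1 < d))
      rw [div_le_iff₀ hLD, add_mul, div_mul_cancel₀ _ hLD.ne']
      have hM : 0 < M d := lt_of_lt_of_le one_pos (one_le_M (by omega))
      have h2 := Real.log_le_log hM (hC d (by omega))
      rw [Real.log_mul hC0.ne' (Real.sqrt_pos.mpr hd0).ne', Real.log_sqrt hd0.le] at h2
      linarith
    rcases Nat.eq_zero_or_pos (deg f) with h0 | h0
    · rw [deg0 n f h0, h0]; simp
    · refine (le_M n hn f hB).trans ((M_le_rpow h0).trans ?_)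
      rw [Real.sqrt_eq_rpow]
      exact Real.rpow_le_rpow_of_exponent_le (by exact_mod_cast h0) hal
  · intro h
    refine ⟨1, fun d hd => ?_⟩
    rw [one_mul, M_eq]
    refine csSup_le ⟨1, balSet_subset d (mem_balSet_one hd)⟩ ?_
    rintro s ⟨n, hn, f, hB, hdf, rfl⟩
    exact (h n hn f hB).trans (Real.sqrt_le_sqrt (by exact_mod_cast hdf))
  · rintro ⟨n, hn, f, hB, hf⟩
    have hpos : 1 ≤ deg f := by
      rcases Nat.eq_zero_or_pos (deg f) with h0 | h0
      · rw [deg0 n f h0, h0] at hf; simp at hf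
      · exact h0
    have hal : 1 / 2 < al := by
      by_contra hc
      push Not at hc
      have h1 := (le_M n hn f hB).trans (M_le_rpow hpos)
      have h2 : (deg f : ℝ) ^ al ≤ √(deg f : ℝ) := by
        rw [Real.sqrt_eq_rpow]
        exact Real.rpow_le_rpow_of_exponent_le (by exact_mod_cast hpos) hc
      linarith
    obtain ⟨e, he, hae⟩ : ∃ e : ℝ, 0 < e ∧ al = 1 / 2 + 2 * e :=
      ⟨(al - 1 / 2) / 2, by linarith, by ring⟩
    refine ⟨e, he, ?_⟩
    have hev : ∀ᶠ d : ℕ in atTop, al - e < Real.log (M d) / Real.log (d : ℝ) :=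
      hlim.eventually (lt_mem_nhds (by linarith))
    obtain ⟨N, hN⟩ := eventually_atTop.mp hev
    set N' := max N 2 with hN'
    have hN'0 : (0:ℝ) < (N' : ℝ) := by
      have : 0 < N' := lt_of_lt_of_le (by norm_num) (le_max_right N 2)
      exact_mod_cast this
    have hN'1 : (1:ℝ) ≤ (N' : ℝ) := by
      have : 1 ≤ N' := le_trans (by norm_num) (le_max_right N 2)
      exact_mod_cast this
    have hp : 0 < (N' : ℝ) ^ (1 / 2 + e) := Real.rpow_pos_of_pos hN'0 _
    refine ⟨((N' : ℝ) ^ (1 / 2 + e))⁻¹, by positivity, fun d hd => ?_⟩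
    have hd0 : (0:ℝ) < d := by exact_mod_cast hd
    rcases le_or_gt d N' with h | h
    · rw [inv_mul_le_iff₀ hp]
      have h1 : (d : ℝ) ^ (1 / 2 + e) ≤ (N' : ℝ) ^ (1 / 2 + e) :=
        Real.rpow_le_rpow hd0.le (by exact_mod_cast h) (by positivity)
      have h2 := one_le_M hd
      nlinarith
    · have hdN : N ≤ d := (le_max_left N 2).trans h.le
      have hd2 : 2 ≤ d := (le_max_right N 2).trans h.le
      have hLD : 0 < Real.log (d : ℝ) := Real.log_pos (by exact_mod_cast (by omega : 1 < d))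
      have h1 := hN d hdN
      rw [lt_div_iff₀ hLD] at h1
      have hM : 0 < M d := lt_of_lt_of_le one_pos (one_le_M hd)
      have h2 : (d : ℝ) ^ (1 / 2 + e) ≤ M d := by
        rw [← Real.exp_log hM, Real.rpow_def_of_pos hd0]
        refine Real.exp_le_exp.mpr ?_
        rw [hae] at h1
        nlinarith
      have h3 : 1 ≤ (N' : ℝ) ^ (1 / 2 + e) := Real.one_le_rpow hN'1 (by positivity)
      have h4 : ((N' : ℝ) ^ (1 / 2 + e))⁻¹ ≤ 1 := inv_le_one_of_one_le₀ h3
      have h5 : 0 ≤ (d : ℝ) ^ (1 / 2 + e) := Real.rpow_nonneg hd0.le _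
      nlinarith

end Vale.Agent.Results.P047.ExponentLaw
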